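import Vale.Agent.P047.Defs
import Vale.Agent.P047.Main

namespace Vale.Agent.Results.P047.Disproof

open Vale.Agent.P047

theorem result :
    (¬ ∀ n : ℕ, 1 ≤ n → ∀ f : (Fin n → ℤˣ) → ℝ, (∀ x, f x = 1 ∨ f x = -1) →
      ∑ i, fourierCoeff f {i} ≤ Real.sqrt (fourierDegree f)) ∧
    (¬ ∃ C : ℝ, ∀ n : ℕ, 1 ≤ n → ∀ f : (Fin n → ℤˣ) → ℝ, (∀ x, f x = 1 ∨ f x = -1) →
      ∑ i, fourierCoeff f {i} ≤ C * Real.sqrt (fourierDegree f)) ∧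
    (∃ ε c : ℝ, 0 < ε ∧ 0 < c ∧ ∀ d : ℕ, 1 ≤ d → ∃ n : ℕ, 1 ≤ n ∧
      ∃ f : (Fin n → ℤˣ) → ℝ, (∀ x, f x = 1 ∨ f x = -1) ∧ fourierDegree f ≤ d ∧
        c * (d : ℝ) ^ (1 / 2 + ε) ≤ ∑ i, fourierCoeff f {i}) :=
  ⟨fun h => not_weak ⟨1, by simpa using h⟩, not_weak, poly_lower⟩

end Vale.Agent.Results.P047.Disproof
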